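import Vale.Agent.P281.H64.TS.Core
import Vale.Agent.P281.H713.ZH
import Vale.Agent.P281.H969.TG.Spec

/-!
# P281, project T-G (helper225): the relative forms of a family with periods, as `HasFormsD`

Copies of `H713/ZB.lean: hasForms_Z` and `H713/ZH.lean: hasForms_periods`.
-/

open scoped Manifold ContDiff Topology ENNReal NNReal
open Set Filter Metric Module

noncomputable section

namespace Vale.Agent.P281.H225.TG

open Vale.Agent.P281 Vale.Agent.P281.MF Vale.Agent.P281.ISO Vale.Agent.P281.ELL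
open Vale.Agent.P281.H713 Vale.Agent.P281.H64.TU Vale.Agent.P281.H64.TK.TS
open Vale.Agent.P281.H969.TG (HasFormsD)

set_option linter.unusedSectionVars false

section Z

variable {E E' E₀ : Type} [NormedAddCommGroup E] [NormedSpace ℂ E] [FiniteDimensional ℂ E]
  [NormedAddCommGroup E'] [NormedSpace ℂ E'] [FiniteDimensional ℂ E']
  [NormedAddCommGroup E₀] [NormedSpace ℂ E₀] [FiniteDimensional ℂ E₀]
variable {X Y : Type} [TopologicalSpace X] [ChartedSpace E X] [IsManifold 𝓘(ℂ, E) ω X]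
  [TopologicalSpace Y] [ChartedSpace E' Y] [IsManifold 𝓘(ℂ, E') ω Y]
variable {f : X → Y} {S : Set Y} {ι : Type} {U : ι → Set Y} {I : Type} [Fintype I]
  {𝒯 : Tame E₀ X}

/-- `hasForms_Z` with the exceptional divisors -/
theorem hasFormsD_Z (hcov : ∀ y, y ∉ S → ∃ a, y ∈ U a) (hUo : ∀ a, IsOpen (U a))
    (hf : ∀ x, HolM E E' f x) (e₀ : E ≃L[ℂ] (E' × E₀)) {Δ : Set X → ℝ} {N : ℕ} (hN : 0 < N)
    {κ₀ : Set X → ℕ} {𝒜 : Set (Set X)} (h𝒜 : 𝒜.Finite) (h𝒜p : ∀ D ∈ 𝒜, IsPrimeDivisor E D)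
    (h𝒜Δ : ∀ D ∈ 𝒜, Δ D ≠ 0)
    (hκ : ∀ D, (κ₀ D : ℝ) ≤ N * Δ D) {θ : ι → I → X → ℂ}
    (hloc : ∀ a x, f x ∈ U a → ∀ (T : Finset (Set X)) (e : Set X → X → ℂ),
      (∀ D, κ₀ D ≠ 0 → D ∈ T) → (∀ D ∈ T, IsLocalEq E D (e D) x) →
      ∃ (ζ : X → E₀) (c : I → X → ℂ), HolV E ζ x ∧ (∀ i, HolV E (c i) x) ∧
        ∀ᶠ z in 𝓝 x, (∀ D ∈ 𝒜, z ∉ D) → ∏ D ∈ T, e D z ^ κ₀ D ≠ 0 → ∀ i,
          θ a i z * ∏ D ∈ T, e D z ^ κ₀ D = c i z * JP e₀ (dM E E' f z) (dV E ζ z) ^ N)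
    {ν : ι → Y → ℝ} (hν : ∀ a, ∀ y ∈ U a, 0 < ν a y)
    (hbd : ∀ r : ℝ, 0 < r → ∃ C : ℝ, 0 ≤ C ∧ ∀ (v₀ : E₀) (Q : E₀ → X),
      (∀ v ∈ ball v₀ r, ContMDiffAt 𝓘(ℂ, E₀) 𝓘(ℂ, E) ω Q v) → InjOn Q (ball v₀ r) →
      (∀ v ∈ ball v₀ r, f (Q v) = f (Q v₀)) → f (Q v₀) ∉ S →
      (∀ v ∈ ball v₀ r, ∀ D ∈ 𝒜, Q v ∉ D) → ∀ P : E →L[ℂ] E₀,
      P.comp (mfderiv 𝓘(ℂ, E₀) 𝓘(ℂ, E) Q v₀ : E₀ →L[ℂ] E) = ContinuousLinearMap.id ℂ E₀ →
      ∀ a, f (Q v₀) ∈ U a → ∀ i, ‖θ a i (Q v₀)‖ * ν a (f (Q v₀)) ≤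
        C * ‖JP e₀ (dM E E' f (Q v₀)) P ^ N‖)
    {Rl : ι → ι → Y → ℂ → Prop}
    (hch : ∀ a b y, y ∈ U a → y ∈ U b → ∃ μ, Rl a b y μ ∧ ∀ x, f x = y →
      ∃ σ : Equiv.Perm I, ∀ i, θ b (σ i) x = μ * θ a i x)
    {y₀ : Y} {a₀ : ι} (ha₀ : y₀ ∈ U a₀)
    (haut : ∃ o : ℕ, 0 < o ∧ ∀ᶠ k in atTop, ∃ (ψ : ι → Y → ℂ) (C' : ℝ),
      (∀ a x, f x ∈ U a → HolV E (fun z => ψ a (f z)) x) ∧
      (∀ a b y μ, y ∈ U a → y ∈ U b → Rl a b y μ → ψ b y * μ ^ (o * k) = ψ a y) ∧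
      (∀ a y, y ∈ U a → ‖ψ a y‖ ≤ C' * ν a y ^ (o * k)) ∧ ψ a₀ y₀ ≠ 0)
    {r : ℕ}
    (hrank : ∃ x₀, f x₀ = y₀ ∧ (∀ D ∈ 𝒜, x₀ ∉ D) ∧ ∃ (ζ : X → E₀) (c : I → X → ℂ),
      HolV E ζ x₀ ∧ (∀ ξ, dM E E' f x₀ ξ = 0 → dV E ζ x₀ ξ = 0 → ξ = 0) ∧
      (∀ i, HolV E (c i) x₀) ∧
      (∀ᶠ z in 𝓝 x₀, ∀ i, θ a₀ i z = c i z * JP e₀ (dM E E' f z) (dV E ζ z) ^ N) ∧
      ∃ i : Fin (r + 1) → I, c (i 0) x₀ ≠ 0 ∧ ∀ t : Fin r → ℂ, (∀ ξ, dM E E' f x₀ ξ = 0 →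
        ∑ s, t s * dif E (fun z => c (i s.succ) z / c (i 0) z) x₀ ξ = 0) → t = 0) :
    HasFormsD 𝒯 f S e₀ Δ r y₀ := by
  classical
  have hn' : (ω : WithTop ℕ∞) ≠ 0 := by simp
  obtain ⟨x₀, hx₀, hx₀𝒜, ζ, c, hζ, hinj, hc, hθ, i, hi0, hrk⟩ := hrank
  obtain ⟨q, hq, hq0, hqe⟩ := exists_slice hf e₀ hζ hinj
  set v₀ := ζ x₀ with hv₀
  have hqt : Tendsto q (𝓝 v₀) (𝓝 x₀) := by
    have := hq.continuousAt.tendsto
    rwa [hq0] at this
  set b : I → E₀ → ℂ := fun i v => c i (q v) with hb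
  have hbc : ∀ i, ContDiffAt ℂ ω (b i) v₀ := fun i =>
    (slice_fderiv hq (by rw [hq0]; exact hc i)).1
  have hfq : ∀ᶠ z in 𝓝 v₀, f (q z) = f (q v₀) := by
    rw [hq0]
    exact hqe.mono fun z hz => hz.1
  -- vertical vectors come from the slice
  let Tq : E₀ →L[ℂ] E := mfderiv 𝓘(ℂ, E₀) 𝓘(ℂ, E) q v₀
  have hvert : ∀ ξ, dM E E' f x₀ ξ = 0 → Tq (dV E ζ x₀ ξ) = ξ := by
    intro ξ hξ
    have h1 : dM E E' f x₀ (Tq (dV E ζ x₀ ξ)) = 0 := by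
      have := slice_ker hf hq hfq (dV E ζ x₀ ξ)
      rwa [hq0] at this
    have hζq : HolV E ζ (q v₀) := by rw [hq0]; exact hζ
    have h2 := (slice_fderiv hq hζq).2
    have h3 : fderiv ℂ (fun z => ζ (q z)) v₀ = ContinuousLinearMap.id ℂ E₀ := by
      have : (fun z => ζ (q z)) =ᶠ[𝓝 v₀] fun z => z := hqe.mono fun z hz => hz.2
      rw [this.fderiv_eq]
      exact fderiv_fun_id
    rw [h3, hq0] at h2
    have h4 : dV E ζ x₀ (Tq (dV E ζ x₀ ξ)) = dV E ζ x₀ ξ := by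
      have := congrArg (fun L : E₀ →L[ℂ] E₀ => L (dV E ζ x₀ ξ)) h2
      exact this.symm
    have h5 := hinj (Tq (dV E ζ x₀ ξ) - ξ)
      (by rw [map_sub, h1, hξ, sub_zero]) (by rw [map_sub, h4, sub_self])
    exact sub_eq_zero.1 h5
  have hratio : ∀ s : Fin r, HolV E (fun z => c (i s.succ) z / c (i 0) z) x₀ := fun s =>
    (hc _).div (hc _) hi0
  have hind : LinearIndependent ℂ fun s : Fin (r + 1) =>
      ((b (i s) v₀, fderiv ℂ (b (i s)) v₀) : ℂ × (E₀ →L[ℂ] ℂ)) := by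
    rw [Fintype.linearIndependent_iff]
    intro t ht
    have h1 := congrArg Prod.fst ht
    have h2 := congrArg Prod.snd ht
    simp only [Prod.fst_sum, Prod.smul_fst, Prod.fst_zero, smul_eq_mul] at h1
    simp only [Prod.snd_sum, Prod.smul_snd, Prod.snd_zero] at h2
    have hb0 : b (i 0) v₀ ≠ 0 := by
      show c (i 0) (q v₀) ≠ 0
      rw [hq0]
      exact hi0
    have h3 : ∀ s : Fin r, b (i 0) v₀ • fderiv ℂ (fun v => b (i s.succ) v / b (i 0) v) v₀ =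
        fderiv ℂ (b (i s.succ)) v₀ - (b (i s.succ) v₀ / b (i 0) v₀) • fderiv ℂ (b (i 0)) v₀ := by
      intro s
      have hd1 := (hbc (i s.succ)).differentiableAt hn'
      have hd0 := (hbc (i 0)).differentiableAt hn'
      have hdr : DifferentiableAt ℂ (fun v => b (i s.succ) v / b (i 0) v) v₀ := by
        simp only [div_eq_mul_inv]
        exact hd1.mul (hd0.inv hb0)
      have h4 : b (i s.succ) =ᶠ[𝓝 v₀] fun v => (b (i s.succ) v / b (i 0) v) * b (i 0) v := by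
        filter_upwards [hd0.continuousAt.eventually_ne hb0] with v hv
        rw [div_mul_cancel₀ _ hv]
      have h5 := (hdr.hasFDerivAt.mul hd0.hasFDerivAt).fderiv
      have h6 : fderiv ℂ (b (i s.succ)) v₀ =
          (b (i s.succ) v₀ / b (i 0) v₀) • fderiv ℂ (b (i 0)) v₀ +
            b (i 0) v₀ • fderiv ℂ (fun v => b (i s.succ) v / b (i 0) v) v₀ := by
        rw [h4.fderiv_eq]
        exact h5
      rw [h6]
      abel
    have h4 : ∑ s : Fin r, t s.succ • fderiv ℂ (fun v => b (i s.succ) v / b (i 0) v) v₀ = 0 := by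
      have h5 : b (i 0) v₀ • ∑ s : Fin r, t s.succ •
          fderiv ℂ (fun v => b (i s.succ) v / b (i 0) v) v₀ = 0 := by
        rw [Finset.smul_sum]
        have h6 : ∀ s : Fin r, b (i 0) v₀ • t s.succ •
            fderiv ℂ (fun v => b (i s.succ) v / b (i 0) v) v₀ =
            t s.succ • fderiv ℂ (b (i s.succ)) v₀ -
              (t s.succ * b (i s.succ) v₀ / b (i 0) v₀) • fderiv ℂ (b (i 0)) v₀ := by
          intro s
          rw [smul_comm, h3, smul_sub, smul_smul, mul_div_assoc]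
        simp only [h6]
        rw [Finset.sum_sub_distrib, ← Finset.sum_smul]
        rw [Fin.sum_univ_succ] at h1 h2
        have h7 : ∑ s : Fin r, t s.succ * b (i s.succ) v₀ / b (i 0) v₀ = - t 0 := by
          rw [← Finset.sum_div, div_eq_iff hb0]
          linear_combination h1
        rw [h7, neg_smul, sub_neg_eq_add, add_comm]
        exact h2
      exact (smul_eq_zero.1 h5).resolve_left hb0
    have h5 : (fun s : Fin r => t s.succ) = 0 := by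
      refine hrk _ fun ξ hξ => ?_
      have h6 := congrArg (fun L : E₀ →L[ℂ] ℂ => L (dV E ζ x₀ ξ)) h4
      have h7 : ∀ s : Fin r, dif E (fun z => c (i s.succ) z / c (i 0) z) x₀ ξ =
          fderiv ℂ (fun v => b (i s.succ) v / b (i 0) v) v₀ (dV E ζ x₀ ξ) := by
        intro s
        have h8 := (slice_fderiv hq (ζ := fun z => c (i s.succ) z / c (i 0) z)
          (by rw [hq0]; exact hratio s)).2
        rw [hq0] at h8
        have h9 := (congrArg (fun L : E₀ →L[ℂ] ℂ => L (dV E ζ x₀ ξ)) h8).symm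
        have h10 : dif E (fun z => c (i s.succ) z / c (i 0) z) x₀ (Tq (dV E ζ x₀ ξ)) =
            fderiv ℂ (fun v => b (i s.succ) v / b (i 0) v) v₀ (dV E ζ x₀ ξ) := h9
        rwa [hvert ξ hξ] at h10
      simp only [h7]
      simpa using h6
    have h6 : t 0 = 0 := by
      rw [Fin.sum_univ_succ] at h1
      have h7 : ∑ s : Fin r, t s.succ * b (i s.succ) v₀ = 0 := by
        refine Finset.sum_eq_zero fun s _ => ?_
        have := congrFun h5 s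
        simp only [Pi.zero_apply] at this
        rw [this, zero_mul]
      rw [h7, add_zero] at h1
      exact (mul_eq_zero.1 h1).resolve_right hb0
    intro s
    refine Fin.cases h6 (fun s => ?_) s
    exact congrFun h5 s
  -- the good points
  have h𝒜o : ∀ᶠ z in 𝓝 x₀, ∀ D ∈ 𝒜, z ∉ D :=
    (Filter.eventually_all_finite h𝒜).2 fun D hD =>
      (h𝒜p D hD).1.isOpen_compl.mem_nhds (hx₀𝒜 D hD)
  have hgood : ∀ᶠ v in 𝓝 v₀, f (q v) = y₀ ∧ (∀ᶠ z in 𝓝 v, f (q z) = y₀) ∧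
      ContMDiffAt 𝓘(ℂ, E₀) 𝓘(ℂ, E) ω q v ∧ (∀ i, HolV E (c i) (q v)) ∧
      (∀ᶠ z in 𝓝 (q v), ∀ i, θ a₀ i z = c i z * JP e₀ (dM E E' f z) (dV E ζ z) ^ N) ∧
      (∀ᶠ z in 𝓝 (q v), ∀ ξ, dM E E' f z ξ = 0 → dV E ζ z ξ = 0 → ξ = 0) := by
    have e1 : ∀ᶠ v in 𝓝 v₀, f (q v) = y₀ := hqe.mono fun z hz => by rw [hz.1, hx₀]
    filter_upwards [e1, eventually_eventually_nhds.2 e1,
      (contMDiffAt_iff_contMDiffAt_nhds (by simp)).1 hq,
      hqt.eventually ((Filter.eventually_all).2 fun i => HolV.eventually (hc i)),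
      hqt.eventually (eventually_eventually_nhds.2 hθ),
      hqt.eventually (eventually_eventually_nhds.2 (ker_eventually hf e₀ hζ hinj))]
      with v h1 h2 h3 h4 h5 h6 using ⟨h1, h2, h3, h4, h5, h6⟩
  obtain ⟨v₂, hg₂, hb₂, l, hl, hlind⟩ := ps_point hbc hind hgood
  obtain ⟨hf₂, hf₂', hq₂, hc₂, hθ₂, hinj₂⟩ := hg₂
  set x₂ := q v₂ with hx₂
  have hfx₂ : f x₂ ∈ U a₀ := by rw [hf₂]; exact ha₀
  -- the weight
  obtain ⟨o, ho, haut⟩ := haut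
  set L : ℕ := ∏ s, l s with hL
  have hL0 : 0 < L := Finset.prod_pos fun s _ => (hl s).1
  have ht : Tendsto (fun k : ℕ => L * k) atTop atTop := tendsto_id.const_mul_atTop' hL0
  obtain ⟨k, ⟨ψ, C', hψ1, hψ2, hψ3, hψ4⟩, hk0⟩ :=
    ((ht.eventually haut).and (eventually_gt_atTop 0)).exists
  set K : ℕ := o * (L * k) with hKd
  have hK0 : 0 < K := Nat.mul_pos ho (Nat.mul_pos hL0 hk0)
  have hdvd : ∀ s, ∃ m, l s * m = K := fun s => by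
    have h1 : l s ∣ K := by
      rw [hKd]
      exact Dvd.dvd.mul_left (Dvd.dvd.mul_right (Finset.dvd_prod_of_mem l (Finset.mem_univ s)) k) o
    obtain ⟨m, hm⟩ := h1
    exact ⟨m, hm.symm⟩
  choose m hm using hdvd
  -- the forms
  have hex : ∀ (s : Fin (r + 1)) (x : X), ∃ v : ℂ, ∀ a, f x ∈ U a →
      v = ψ a (f x) * Sf θ (l s) (m s) a x := by
    intro s x
    by_cases hx : ∃ a, f x ∈ U a
    · obtain ⟨a, ha⟩ := hx
      refine ⟨ψ a (f x) * Sf θ (l s) (m s) a x, fun b hb => ?_⟩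
      obtain ⟨μ, hμ, hμ2⟩ := hch a b (f x) ha hb
      obtain ⟨σ, hσ⟩ := hμ2 x rfl
      rw [sf_change hσ (hm s), ← hψ2 a b (f x) μ ha hb hμ]
      ring
    · exact ⟨0, fun a ha => absurd ⟨a, ha⟩ hx⟩
  choose Θ hΘ using hex
  have hrel : ∀ s, RelForm f S e₀ (N * K) 𝒜 (fun D => K * κ₀ D) (Θ s) := fun s =>
    relForm_Z hcov hUo hf e₀ hloc hν hbd (hm s) hK0 hψ1 hψ3 fun a x ha => hΘ s x a ha
  -- local expressions at the good point
  have hlc : ∀ᶠ z in 𝓝 x₂, ∀ s, Θ s z = (ψ a₀ (f z) * JP e₀ (dM E E' f z) (dV E ζ z) ^ (N * K)) *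
      (∑ i, c i z ^ l s) ^ m s := by
    filter_upwards [hθ₂, (hf x₂).continuousAt.eventually ((hUo a₀).mem_nhds hfx₂)] with z h1 h2 s
    rw [hΘ s z a₀ h2]
    unfold Sf
    have h3 : ∑ i, θ a₀ i z ^ l s = (∑ i, c i z ^ l s) *
        JP e₀ (dM E E' f z) (dV E ζ z) ^ (N * l s) := by
      rw [Finset.sum_mul]
      refine Finset.sum_congr rfl fun i _ => ?_
      rw [h1 i, mul_pow, ← pow_mul]
    rw [h3, mul_pow, ← pow_mul, mul_assoc N, hm s]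
    ring
  have hψx : HolV E (fun z => ψ a₀ (f z)) x₂ := hψ1 a₀ x₂ hfx₂
  have hψne : ψ a₀ (f x₂) ≠ 0 := by rw [hf₂]; exact hψ4
  have hcs : ∀ s, HolV E (fun z => (∑ i, c i z ^ l s) ^ m s) x₂ := fun s => holV_sf hc₂ _ _
  have hcs0 : (∑ i, c i x₂ ^ l 0) ^ m 0 ≠ 0 := pow_ne_zero _ (hl 0).2
  have hnz : ∀ᶠ z in 𝓝 x₂, ψ a₀ (f z) * JP e₀ (dM E E' f z) (dV E ζ z) ^ (N * K) ≠ 0 := by
    filter_upwards [hψx.continuousAt.eventually_ne hψne, hinj₂] with z h1 h2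
    exact mul_ne_zero h1 (pow_ne_zero _ (JP_ne_zero e₀ h2))
  have hrat : ∀ s, (fun z => Θ s z / Θ 0 z) =ᶠ[𝓝 x₂]
      fun z => (∑ i, c i z ^ l s) ^ m s / (∑ i, c i z ^ l 0) ^ m 0 := by
    intro s
    filter_upwards [hlc, hnz] with z h1 h2
    rw [h1 s, h1 0, mul_div_mul_left _ _ h2]
  have hrh : ∀ s, HolV E (fun z => (∑ i, c i z ^ l s) ^ m s / (∑ i, c i z ^ l 0) ^ m 0) x₂ :=
    fun s => (hcs s).div (hcs 0) hcs0
  refine ⟨N * K, 𝒜, fun D => K * κ₀ D, Θ 0, fun s => Θ s.succ, Nat.mul_pos hN hK0, h𝒜Δ,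
    relFormT_of (hrel 0), fun s => relFormT_of (hrel s.succ), fun D => ?_, x₂, hf₂, ?_, fun s => ?_, ?_⟩
  · have h1 := hκ D
    push_cast
    have h2 : (0 : ℝ) ≤ K := by positivity
    calc (K : ℝ) * κ₀ D ≤ K * (N * Δ D) := by gcongr
      _ = _ := by ring
  · filter_upwards [hlc, hnz, (hcs 0).continuousAt.eventually_ne hcs0] with z h1 h2 h3
    rw [h1 0]
    exact mul_ne_zero h2 h3
  · exact (hrh s.succ).congr (hrat s.succ)
  · intro t ht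
    have h1 := pow_indep (fun i => (hb₂ i).differentiableAt hn') hK0 hm (fun s => (hl s).2) hlind
    have hud : ∀ s, DifferentiableAt ℂ (fun v => ps b (l s) v ^ m s) v₂ := fun s =>
      ((ps_cd hb₂ (l s)).pow (m s)).differentiableAt hn'
    have h2 := ratio_indep (u := fun s v => ps b (l s) v ^ m s) hud
      (pow_ne_zero _ (hl 0).2) h1 t fun ξ => ?_
    · exact fun s => congrFun h2 s
    · have h3 := ht ((mfderiv 𝓘(ℂ, E₀) 𝓘(ℂ, E) q v₂ : E₀ →L[ℂ] E) ξ) (slice_ker hf hq₂ (by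
        filter_upwards [hf₂'] with z hz
        rw [hz]; exact hf₂.symm) ξ)
      rw [← h3]
      refine Finset.sum_congr rfl fun s _ => ?_
      congr 1
      have h4 := (slice_fderiv hq₂ (hrh s.succ)).2
      have h5 := (hrat s.succ).mfderiv_eq (I := 𝓘(ℂ, E)) (I' := 𝓘(ℂ, ℂ))
      have h6 : dif E (fun z => Θ s.succ z / Θ 0 z) x₂ =
          dif E (fun z => (∑ i, c i z ^ l s.succ) ^ m s.succ / (∑ i, c i z ^ l 0) ^ m 0) x₂ := h5
      rw [h6]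
      exact congrArg (fun L : E₀ →L[ℂ] ℂ => L ξ) h4

end Z

section Forms

variable {E E' : Type} [NormedAddCommGroup E] [NormedSpace ℂ E] [FiniteDimensional ℂ E]
  [NormedAddCommGroup E'] [NormedSpace ℂ E'] [FiniteDimensional ℂ E']
variable {X Y : Type} [TopologicalSpace X] [ChartedSpace E X] [IsManifold 𝓘(ℂ, E) ω X]
  [TopologicalSpace Y] [ChartedSpace E' Y] [IsManifold 𝓘(ℂ, E') ω Y]
variable {V : Type} [NormedAddCommGroup V] [InnerProductSpace ℂ V] [FiniteDimensional ℂ V]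
variable {n m d b t r N s : ℕ} {f : X → Y} {S : Set Y} {κ : Set X → ℕ}
  {Q : (Fin n → ℝ) → (Fin n → ℝ) → ℝ} {B : Fin b → Matrix (Fin m) (Fin m) ℝ}
  {w : Fin b → Fin m → ℝ} {e : Fin b → ℕ} {ι : Type} {U : ι → Set Y}
  {π : ι → Y → ((Fin n → ℝ) ≃L[ℝ] V)} {p : ι → Y → Fin b → Fin m → ℂ}
  {η : ι → Fin t → X → (Fin d → E) → ℂ} {𝒯 : Tame (Fin d → ℂ) X}

/-- `hasForms_periods` with the exceptional divisors -/
theorem hasFormsD_periods (hC : IsPeriodForms E E' f S r N κ Q s B w e U π p η)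
    (hf : ∀ x, HolM E E' f x) (e₀ : E ≃L[ℂ] (E' × (Fin d → ℂ))) {Δ : Set X → ℝ}
    (hN : 0 < N) (hfin : {D | κ D ≠ 0}.Finite) (hprime : ∀ D, κ D ≠ 0 → IsPrimeDivisor E D)
    (hκ : ∀ D, (κ D : ℝ) ≤ N * Δ D) {y : Y} (hy : y ∉ S) : HasFormsD 𝒯 f S e₀ Δ r y := by
  classical
  have hUS : ∀ a, ∀ y ∈ U a, y ∉ S := fun a y hy => (hC.cover y).2 ⟨a, hy⟩
  obtain ⟨θ, hθ, hθ0⟩ := exists_theta e₀ hUS hC.chart hC.forms hfin hprime
  have hθ' : ∀ a, IsTheta f e₀ κ N (U a) (η a) (θ a) := fun a => hθ a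
  obtain ⟨a₀, ha₀⟩ := (hC.cover y).1 hy
  let ν : ι → Y → ℝ := fun a y => if h : ∃ G : V ≃L[ℂ] V, IsPol Q (π a y) G then
    ‖((h.choose : V ≃L[ℂ] V) : V →L[ℂ] V).det‖ ^ s / pnS B e (p a y) else 1
  have hν : ∀ a, ∀ y ∈ U a, ∃ G : V ≃L[ℂ] V, IsPol Q (π a y) G ∧
      ν a y = ‖(G : V →L[ℂ] V).det‖ ^ s / pnS B e (p a y) := by
    intro a y hy
    have h : ∃ G : V ≃L[ℂ] V, IsPol Q (π a y) G := hC.polarized a y hy
    refine ⟨h.choose, h.choose_spec, ?_⟩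
    simp only [ν]
    rw [dif_pos h]
  have hper : ∀ a, ∀ y ∈ U a, ∀ j, IsK3Period (B j) (w j) (p a y j) := fun a y hy j =>
    (hC.period a y hy j).1
  have hpn : ∀ a, ∀ y ∈ U a, 0 < pnS B e (p a y) := fun a y hy => pnS_pos (hper a y hy)
  have hκΔ : ∀ D ∈ {D | κ D ≠ 0}, Δ D ≠ 0 := by
    intro D hD h0
    have h1 := hκ D
    rw [h0, mul_zero] at h1
    have h2 : (0 : ℝ) < κ D := by exact_mod_cast Nat.pos_of_ne_zero hD
    linarith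
  refine hasFormsD_Z (𝒯 := 𝒯) (𝒜 := {D | κ D ≠ 0}) (κ₀ := κ) (N := N) (θ := θ) (ν := ν)
    (Rl := RelP Q s B w e π p) (fun y hy => (hC.cover y).1 hy) hC.isOpen hf e₀ hN hfin
    (fun D hD => hprime D hD) hκΔ hκ ?_ ?_ ?_ ?_ ha₀ ?_ ?_
  · intro a x hx T e' hT he'
    obtain ⟨ζ, c, hζ, hc, hev⟩ := hC.forms a x hx T e' hT he'
    obtain ⟨h1, -, h2⟩ := theta_loc hf e₀ (hC.isOpen a) (hθ' a) hx hζ hev
    exact ⟨vec ζ, c, h1, hc, h2⟩
  · intro a y hy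
    obtain ⟨G, hG, hG2⟩ := hν a y hy
    rw [hG2]
    have h1 := norm_pos_iff.2 (det_equiv_ne G)
    have h2 := hpn a y hy
    positivity
  · intro ρ hρ
    obtain ⟨C, hC0, hCb⟩ := pull_bound hC hf hN hfin hprime hρ
    refine ⟨Real.sqrt C, Real.sqrt_nonneg _, fun v₀ q h1 h2 h3 h4 h5 P h6 a ha i => ?_⟩
    obtain ⟨G, hG, hG2⟩ := hν a _ ha
    have hv₀ : v₀ ∈ ball v₀ ρ := mem_ball_self hρ
    have hoff : ∀ D, κ D ≠ 0 → q v₀ ∉ D := fun D hD => h5 v₀ hv₀ D hD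
    have h7 := hCb v₀ q ⟨h1, h2, h3⟩ h5 a ha G hG i
    have h8 := hθ a (q v₀) ha hoff P (mfderiv 𝓘(ℂ, Fin d → ℂ) 𝓘(ℂ, E) q v₀)
      (slice_ker hf (h1 v₀ hv₀) (eventually_of_mem (ball_mem_nhds v₀ hρ) fun v hv => h3 v hv))
      (fun w => congrArg (fun L : (Fin d → ℂ) →L[ℂ] (Fin d → ℂ) => L w) h6) i
    have h9 : θ a i (q v₀) = pull E (η a i) q v₀ * JP e₀ (dM E E' f (q v₀)) P ^ N := h8
    rw [h9, norm_mul, mul_right_comm]
    refine mul_le_mul_of_nonneg_right ?_ (norm_nonneg _)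
    have h10 := hpn a _ ha
    rw [hG2, ← pnS_sq (hper a _ ha)] at *
    refine Real.le_sqrt_of_sq_le ?_
    rw [mul_pow, div_pow, ← pow_mul, mul_comm s 2, ← mul_div_assoc, div_le_iff₀ (by positivity)]
    exact h7
  · intro a a' y ha ha'
    obtain ⟨G, σ, χ, τ, hG, hχ, h1⟩ := hC.change a a' y ⟨ha, ha'⟩
    refine ⟨(G : V →L[ℂ] V).det ^ s * ∏ j, χ j ^ e j, ⟨G, σ, χ, hG, hχ, rfl⟩, fun x hx =>
      ⟨τ, fun i => ?_⟩⟩
    by_cases hoff : ∀ D, κ D ≠ 0 → x ∉ D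
    · have hxa : f x ∈ U a := by rw [hx]; exact ha
      have hxa' : f x ∈ U a' := by rw [hx]; exact ha'
      obtain ⟨ζ, hζ, hinj⟩ := hC.chart x (hUS a _ hxa)
      have hζ : ∀ l, HolV E (ζ l) x := hζ
      obtain ⟨T, hT1, hT2⟩ := exists_frame_of e₀ (A := dM E E' f x) (P := dV E (vec ζ) x)
        (fun ξ h1 h2 => hinj ξ h1 fun l => by
          have h3 := dV_vec hζ ξ l
          rw [h2] at h3
          exact h3.symm)
      rw [hθ a x hxa hoff _ T hT1 hT2, hθ a' x hxa' hoff _ T hT1 hT2,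
        h1 x hx hoff i _ fun l => hT1 _]
      ring
    · rw [hθ0 a i x hoff, hθ0 a' (τ i) x hoff, mul_zero]
  · obtain ⟨o, ho, h1⟩ := aut hC hf ha₀
    refine ⟨o, ho, h1.mono fun k hk => ?_⟩
    obtain ⟨ψ, C, h2, h3, h4, h5⟩ := hk
    refine ⟨ψ, C, h2, fun a a' y μ ha ha' hμ => h3 a a' y μ ha ha' hμ, fun a y hy => ?_, h5⟩
    obtain ⟨G, hG, hG2⟩ := hν a y hy
    rw [hG2]
    exact h4 a y G hy hG
  · exact theta_rank hf e₀ (hC.isOpen a₀) (hθ' a₀) (hC.forms a₀) hfin hprime ha₀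
      (hC.rank a₀ y ha₀)

end Forms

end Vale.Agent.P281.H225.TG
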