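import Vale.Agent.P281.H225.TG.ZD
import Vale.Agent.P281.H83.HK.Spec

/-!
# P281, project T-G (helper225): the symplectic class as `HasFam`
-/

open Set Filter Metric MeasureTheory Vale.Agent.P281 Vale.Agent.P281.H713
open Vale.Agent.P272.K (Chart IsKahler IsHermitian)
open Vale.Agent.P281.MF Vale.Agent.P281.ISO
open Vale.Agent.P281.H713.TZ Vale.Agent.P281.H64
open Vale.Agent.P281.H64.Gen
open Vale.Agent.P281.H64.Thin (IsThinSet)
open Vale.Agent.P281.H64.TU (Tame KTame RelFormT HasFormsT)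
open Vale.Agent.P281.H969.TG (HasFormsD HasFam)
open scoped Topology ContDiff Manifold

set_option linter.all false

noncomputable section

namespace Vale.Agent.P281.H225.TG

open Vale.Agent.P281.H64.TK Vale.Agent.P281.H64.TK.TS Vale.Agent.P281.H83.HK

/-- **famH**: the relative forms of a family of symplectic manifolds (T-HK; `d = 2`: T-S). -/
theorem famH_of (glob : Glob2Stmt) (form : Form2Stmt) (fib : Fib2Stmt) (ab : TK.ABStmt)
    (crit : CritStmt) (compl : ComplStmt) {p d : ℕ} {X Y : Type} [TopologicalSpace X]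
    [ChartedSpace (H64.Cm (p + d)) X] [IsManifold 𝓘(ℂ, H64.Cm (p + d)) ω X] [TopologicalSpace Y]
    [ChartedSpace (H64.Cm p) Y] [IsManifold 𝓘(ℂ, H64.Cm p) ω Y] {f : X → Y} {Δ : Set X → ℝ}
    (hd : 2 ≤ d) (h : H511.Surf.IsFibration (H64.Cm (p + d)) (H64.Cm p) f Δ)
    (hw : ∃ w : Chart (p + d) X → H64.Cm (p + d) → Matrix (Fin (p + d)) (Fin (p + d)) ℂ,
      IsKahler w) :
    ∃ H : ℕ → Set Y, (∀ k, IsThinSet (H64.Cm p) (H k)) ∧ ∀ y, (∀ k, y ∉ H k) →
      ∀ (F : Type) [TopologicalSpace F] [T2Space F] [SimplyConnectedSpace F]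
        [ChartedSpace (H64.Cm d) F] (i : F → X),
        H511.Surf.IsFibre (H64.Cm (p + d)) (H64.Cm d) f y i → Sympl d F →
        HasFam p d 0 f Δ := by
  classical
  obtain ⟨w, hw⟩ := hw
  have : T2Space X := h.hausdorff.1
  have : T2Space Y := h.hausdorff.2
  have : CompactSpace X := h.compact
  have : ConnectedSpace X := h.connected
  have hΔ0 : ∀ D, 0 ≤ Δ D := fun D => (snc01 (JB.snc h.snc) D).1
  have hsurj : Function.Surjective f := fun y => (h.fibres y).nonempty
  have : PreconnectedSpace Y := by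
    rw [preconnectedSpace_iff_univ, ← hsurj.range_eq]
    exact isPreconnected_range h.hol.continuous
  obtain ⟨S, hS, hP⟩ := crit (p + d) p X Y f h.hol h.fibres
  have hP₁ := hP S subset_rfl hS.1
  have hpre := (compl p Y S hS).2
  obtain ⟨H, hH, hsub⟩ := hS.2
  refine ⟨H, hH, fun y hy F _ _ _ _ i hi hpg => ?_⟩
  have hyS : y ∉ S := by
    intro h2
    obtain ⟨k, hk⟩ := mem_iUnion.1 (hsub h2)
    exact hy k hk
  obtain ⟨N, hN, hND⟩ := fib p d X Y f S (by omega) h.hol hP₁ ab y hyS F i hi hpg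
  obtain ⟨n, B, v, R, hR, hL⟩ := glob p d N X Y f S w y hd h.hol hP₁ hpre hw hyS hND
  obtain ⟨ι, U, π, P, η, hC⟩ := form p d N X Y f S w n B v R hN hd hR h.hol hP₁ hw hL
  refine ⟨w, S, hw.toIsHermitian, hS, hP₁, fun e₀ y hy => ?_⟩
  refine hasFormsD_periods hC (fun x => h.hol x) e₀ (Nat.mul_pos two_pos hN) ?_ ?_ ?_ hy
  · simp
  · intro D hD
    exact absurd rfl hD
  · intro D
    simpa using mul_nonneg (Nat.cast_nonneg (2 * N)) (hΔ0 D)

end Vale.Agent.P281.H225.TG
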