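import Vale.Agent.P281.H225.TG.FamH
import Vale.Agent.P281.H83.HK.Fin

/-!
# P281, project T-G (helper225): the symplectic class as `HasFam`, the theorem
-/

open Vale.Agent.P281 Vale.Agent.P281.H64 Vale.Agent.P281.H64.TK.TS
open Vale.Agent.P281.H64.Thin (IsThinSet)
open Vale.Agent.P281.H83.HK
open Vale.Agent.P272.K (Chart IsKahler)
open scoped Manifold ContDiff

noncomputable section

namespace Vale.Agent.P281.H225.TG

theorem famH {p d : ℕ} {X Y : Type} [TopologicalSpace X]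
    [ChartedSpace (H64.Cm (p + d)) X] [IsManifold 𝓘(ℂ, H64.Cm (p + d)) ω X] [TopologicalSpace Y]
    [ChartedSpace (H64.Cm p) Y] [IsManifold 𝓘(ℂ, H64.Cm p) ω Y] {f : X → Y} {Δ : Set X → ℝ}
    (hd : 2 ≤ d) (h : H511.Surf.IsFibration (H64.Cm (p + d)) (H64.Cm p) f Δ)
    (hw : ∃ w : Chart (p + d) X → H64.Cm (p + d) → Matrix (Fin (p + d)) (Fin (p + d)) ℂ,
      IsKahler w) :
    ∃ H : ℕ → Set Y, (∀ k, IsThinSet (H64.Cm p) (H k)) ∧ ∀ y, (∀ k, y ∉ H k) →
      ∀ (F : Type) [TopologicalSpace F] [T2Space F] [SimplyConnectedSpace F]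
        [ChartedSpace (H64.Cm d) F] (i : F → X),
        H511.Surf.IsFibre (H64.Cm (p + d)) (H64.Cm d) f y i → Sympl d F →
        H969.TG.HasFam p d 0 f Δ :=
  famH_of
    (H399.HK.glob TK.inputs aMark
      (H834.HK.gen2Const aMark H864.TS.pull aForms aPos aHI aPM aKC H191.TS.sig)
      (H594.HK.per2 aHI aForms aPos) aPM H594.HK.grauert2 H702.HK.holP2 aKC aRA aForms)
    (H511.HK.form2 TK.inputs.k aForms (H594.HK.per2 aHI aForms aPos) aPM H191.HK.twoMark2)
    H22.HK.fib2 TK.inputs.ab H303.UF.crit H383.Gen.compl hd h hw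

end Vale.Agent.P281.H225.TG
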